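import Vale.Agent.P207.H955.FrN
import Vale.Agent.P207.H955.SobN
import Vale.Agent.P207.H442.FrC
import Vale.Agent.P207.H571.L2Reg

/-!
# P207: the system of the frame bundle and the frame calculus
-/

open scoped Manifold ContDiff ENNReal Topology
open Bundle MeasureTheory Set Filter Topology VectorField

noncomputable section

set_option maxSynthPendingDepth 3
set_option linter.unusedSectionVars false

namespace Vale.Agent.P207.H955

open Vale.Agent.P255 (RMetric coefIn Gam Riem IsGeo Metric Npc ExpSys toMetric geo expg cc trans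
  IsGeodesic coefL chris chrisB IsMetricOn covD)
open Vale.Agent.P207 Vale.Agent.P207.Q Vale.Agent.P207.Q.H545

variable {n : ℕ} {M : Type} [TopologicalSpace M] [ChartedSpace (EV n) M]
  [IsManifold 𝓘(ℝ, EV n) ∞ M] [NeZero n] [CompactSpace M] [T2Space M] {g : RMetric (EV n) M}
  [Nonempty (Fr g)] {m : Measure (UT g)} {mP : Measure (Fr g)} {φ : ℝ → UT g → UT g}
  (hP : IsMP m mP) (hφ : IsGeoFlow g φ) (hmp : ∀ t, MeasurePreserving (φ t) m m)

/-- **the system of flows of the frame bundle.** -/
def frNSys : H395.NSys (Ix n) (Fr g) mP := frN (horFlows g) hP hφ hmp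

theorem frNSys_A : (frNSys hP hφ hmp).A = SmFr g := rfl

theorem frNSys_X_inl (i : Fin n) (f : SmFr g) :
    (frNSys hP hφ hmp).X (.inl i) f = H442.Hd g i f := rfl

theorem frNSys_X_inr (i j : Fin n) (f : SmFr g) :
    (frNSys hP hφ hmp).X (.inr (i, j)) f = H442.Vd g i j f := rfl

variable [IsProbabilityMeasure mP] [mP.IsOpenPosMeasure]

/-- **the Hilbert space system of the frame bundle.** -/
def frHSys : H395.HSys (Ix n) (Lp ℝ 2 mP) := H571.toHSys (frNSys hP hφ hmp)

theorem frHSys_rel (h : (frNSys hP hφ hmp).Loc) : (frHSys hP hφ hmp).Rel :=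
  rel_of_loc' (frNSys hP hφ hmp) h (frHSys hP hφ hmp) fun _ _ _ => rfl

theorem frHSys_reg (h : (frNSys hP hφ hmp).Loc) (h' : (frNSys hP hφ hmp).CL) :
    (frHSys hP hφ hmp).Reg := H571.reg_of_loc_cl (S := frNSys hP hφ hmp) h h'

end Vale.Agent.P207.H955
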