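import Vale.Agent.P207.Q.FrSys3
import Vale.Agent.P207.Q.H665.Dense
import Vale.Agent.P207.Q.H743.CurvSm
import Vale.Agent.P207.Q.H892.BrkFr
import Vale.Agent.P207.H395.NSys

/-!
# P207: the orthonormal frame bundle as a system of flows
-/

open scoped Manifold ContDiff ENNReal Topology
open Bundle MeasureTheory Set Filter Topology VectorField

noncomputable section

set_option maxSynthPendingDepth 3
set_option linter.unusedSectionVars false

namespace Vale.Agent.P207.H955

open Vale.Agent.P255 (RMetric coefIn Gam Riem IsGeo Metric Npc ExpSys toMetric geo expg cc trans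
  IsGeodesic coefL chris chrisB IsMetricOn covD)
open Vale.Agent.P207 Vale.Agent.P207.Q Vale.Agent.P207.Q.H545
open Vale.Agent.P207.Q.H892 (ver_sum ver_neg)

variable {n : ℕ}

/-- the rotation generators, the diagonal ones are zero. -/
theorem isGen_rot' (i j : Fin n) : IsGen (Brk.rot (ι := Fin n) i j) := by
  by_cases h : i = j
  · subst h
    have h0 : Brk.rot (ι := Fin n) i i = 0 := by simp [Brk.rot]
    rw [h0]
    exact ⟨by simp, by simp⟩
  · exact isGen_rot h

/-- a skew matrix in terms of the rotation generators. -/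
theorem skew_eq_sum {A : Matrix (Fin n) (Fin n) ℝ} (hA : ∀ i j, A i j = -A j i) :
    A = ∑ q : Fin n × Fin n, (1 / 2 * A q.1 q.2) • Brk.rot (ι := Fin n) q.1 q.2 := by
  ext i j
  rw [Matrix.sum_apply, Fintype.sum_prod_type]
  simp only [Matrix.smul_apply, Brk.rot, Matrix.sub_apply, Matrix.single_apply, smul_eq_mul,
    mul_sub, Finset.sum_sub_distrib]
  have h1 : ∑ x : Fin n, ∑ y : Fin n, 1 / 2 * A x y * (if x = i ∧ y = j then (1 : ℝ) else 0) =
      1 / 2 * A i j := by
    rw [Finset.sum_eq_single i, Finset.sum_eq_single j]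
    · simp
    · intro y _ hy
      simp [hy]
    · simp
    · intro x _ hx
      simp [hx]
    · simp
  have h2 : ∑ x : Fin n, ∑ y : Fin n, 1 / 2 * A x y * (if y = i ∧ x = j then (1 : ℝ) else 0) =
      1 / 2 * A j i := by
    rw [Finset.sum_eq_single j, Finset.sum_eq_single i]
    · simp
    · intro y _ hy
      simp [hy]
    · simp
    · intro x _ hx
      simp [hx]
    · simp
  rw [h1, h2, hA j i]
  ring

/-- the index set of the flows of the frame bundle. -/
abbrev Ix (n : ℕ) : Type := Fin n ⊕ (Fin n × Fin n)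

variable {M : Type} [TopologicalSpace M] [ChartedSpace (EV n) M] [IsManifold 𝓘(ℝ, EV n) ∞ M]

/-- the fields. -/
def fieldN (g : RMetric (EV n) M) : Ix n → ChField g
  | .inl i => horZ g (Pi.single i 1)
  | .inr q => verZ g (Brk.rot q.1 q.2)

variable {g : RMetric (EV n) M}

/-- the flows. -/
def flowN (H : HorFlows g) : Ix n → ℝ → Fr g → Fr g
  | .inl i => H.Φ i
  | .inr q => verFlow (isGen_rot' q.1 q.2)

variable [NeZero n]

theorem isFlow_flowN (H : HorFlows g) (a : Ix n) : IsFlow (fieldN g a) (flowN H a) := by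
  cases a with
  | inl i => exact (H.hor i).isFlow
  | inr q => exact isFlow_ver (isGen_rot' q.1 q.2)

theorem continuous_flowN (H : HorFlows g) (a : Ix n) :
    Continuous fun q : ℝ × Fr g => flowN H a q.1 q.2 := by
  cases a with
  | inl i => exact H.cont i
  | inr q => exact continuous_verFlow (isGen_rot' q.1 q.2)

section Der

variable {V : Type} [NormedAddCommGroup V] [NormedSpace ℝ V]

theorem hasDerivAt_dZ {Z : ChField g} {Ψ : ℝ → Fr g → Fr g} (h : IsFlow Z Ψ) {f : Fr g → V}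
    (hf : SmF f) (p : Fr g) : HasDerivAt (fun t => f (Ψ t p)) (dZ Z f p) 0 := by
  have h1 := h.hasDerivAt hf p 0
  rwa [h.zero] at h1

theorem dZ_unique {Z : ChField g} {Ψ : ℝ → Fr g → Fr g} (h : IsFlow Z Ψ) {f : Fr g → V}
    (hf : SmF f) {p : Fr g} {v : V} (hv : HasDerivAt (fun t => f (Ψ t p)) v 0) : dZ Z f p = v :=
  (hasDerivAt_dZ h hf p).unique hv

end Der

variable [CompactSpace M] [T2Space M]

omit [CompactSpace M] [T2Space M] in
/-- the derivation of the algebra of smooth functions along a flow. -/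
def derN {Z : ChField g} {Ψ : ℝ → Fr g → Fr g} (h : IsFlow Z Ψ) :
    Derivation ℝ (SmFr g) (SmFr g) :=
  Derivation.mk'
    { toFun := fun f => ⟨⟨dZ Z (fun p => (f : C(Fr g, ℝ)) p), (h.smF_dZ f.2).continuous⟩,
        h.smF_dZ f.2⟩
      map_add' := fun f f' => by
        apply Subtype.ext
        ext p
        exact dZ_unique h (f + f').2
          ((hasDerivAt_dZ h f.2 p).add (hasDerivAt_dZ h f'.2 p))
      map_smul' := fun c f => by
        apply Subtype.ext
        ext p
        exact dZ_unique h (c • f).2 ((hasDerivAt_dZ h f.2 p).const_smul c) }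
    (fun f f' => by
      apply Subtype.ext
      ext p
      have h1 := (hasDerivAt_dZ h f.2 p).mul (hasDerivAt_dZ h f'.2 p)
      refine (dZ_unique h (f * f').2 h1).trans ?_
      rw [h.zero]
      change dZ Z (fun p => (f : C(Fr g, ℝ)) p) p * (f' : C(Fr g, ℝ)) p +
          (f : C(Fr g, ℝ)) p * dZ Z (fun p => (f' : C(Fr g, ℝ)) p) p =
        (f : C(Fr g, ℝ)) p * dZ Z (fun p => (f' : C(Fr g, ℝ)) p) p +
          (f' : C(Fr g, ℝ)) p * dZ Z (fun p => (f : C(Fr g, ℝ)) p) p
      ring)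

omit [CompactSpace M] [T2Space M] in
theorem derN_apply {Z : ChField g} {Ψ : ℝ → Fr g → Fr g} (h : IsFlow Z Ψ) (f : SmFr g)
    (p : Fr g) : (derN h f : C(Fr g, ℝ)) p = dZ Z (fun p => (f : C(Fr g, ℝ)) p) p := rfl

omit [CompactSpace M] [T2Space M] in
theorem coe_derN {Z : ChField g} {Ψ : ℝ → Fr g → Fr g} (h : IsFlow Z Ψ) (f : SmFr g) :
    (fun p => (derN h f : C(Fr g, ℝ)) p) = dZ Z (fun p => (f : C(Fr g, ℝ)) p) := rfl

/-! ### the brackets -/

section Brackets

variable {f : Fr g → ℝ}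

omit [CompactSpace M] [T2Space M] in
/-- the vertical derivative of a skew matrix. -/
theorem fderiv_ver_skew (hf : SmF f) {A : Matrix (Fin n) (Fin n) ℝ}
    (hA : ∀ i j, A i j = -A j i) {a : M} {p : Fr g} (ha : p.pt ∈ (chartAt (EV n) a).source) :
    fderiv ℝ (rd f a) (chF a p.1) (Brk.ver A (chF a p.1)) =
      ∑ q : Fin n × Fin n, (1 / 2 * A q.1 q.2) * dZ (verZ g (Brk.rot q.1 q.2)) f p := by
  conv_lhs => rw [skew_eq_sum hA]
  rw [ver_sum, map_sum]
  refine Finset.sum_congr rfl fun q _ => ?_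
  rw [map_smul, smul_eq_mul, fderiv_ver_eq (isGen_rot' q.1 q.2) hf ha]

omit [CompactSpace M] [T2Space M] in
/-- `[H_i, H_j] = (1/2) ∑ R_ijkl V_kl`. -/
theorem brk_hor_hor (H : HorFlows g) (hf : SmF f) (i j : Fin n) (p : Fr g) :
    dZ (horZ g (Pi.single i 1)) (dZ (horZ g (Pi.single j 1)) f) p -
      dZ (horZ g (Pi.single j 1)) (dZ (horZ g (Pi.single i 1)) f) p =
      ∑ q : Fin n × Fin n, (1 / 2 * Rf g p i j q.1 q.2) *
        dZ (verZ g (Brk.rot q.1 q.2)) f p := by
  have ha : p.pt ∈ (chartAt (EV n) p.pt).source := mem_chart_source _ _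
  have hu : (chF p.pt p.1).1 ∈ (chartAt (EV n) p.pt).target := (chartAt (EV n) p.pt).map_source ha
  have hm := (mt g).isMetricOn p.pt
  rw [(H.hor i).isFlow.bracket (H.hor j).isFlow hf ha]
  change fderiv ℝ (rd f p.pt) (chF p.pt p.1)
    (lieBracket ℝ (hF ((mt g).coef p.pt) (Pi.single i 1))
      (hF ((mt g).coef p.pt) (Pi.single j 1)) (chF p.pt p.1)) = _
  rw [hF_single, hF_single, Brk.lieBracket_hor_hor_orth hm hu (by simp [EV]) (orth_chF ha)]
  have hR : ∀ c d, Rf g p i j c d = (mt g).coef p.pt (chF p.pt p.1).1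
      (D1.curvT ((mt g).coef p.pt) (chF p.pt p.1).1 ((chF p.pt p.1).2 i) ((chF p.pt p.1).2 j)
        ((chF p.pt p.1).2 c)) ((chF p.pt p.1).2 d) := fun c d => Rf_eq p i j c d ha
  have hs : ∀ c d, Rf g p i j c d = -Rf g p i j d c := by
    intro c d
    rw [hR, hR]
    exact RR_skew hm hu (p := chF p.pt p.1) i j c d
  rw [fderiv_ver_skew hf (fun c d => ?_) ha]
  · refine Finset.sum_congr rfl fun q _ => ?_
    rw [Matrix.of_apply, ← hR, ← hs]
  · rw [Matrix.of_apply, Matrix.of_apply, ← hR, ← hR, ← hs, hs, neg_neg]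

omit [CompactSpace M] [T2Space M] in
theorem rot_skew (i j k l : Fin n) : Brk.rot (ι := Fin n) i j k l = -Brk.rot i j l k := by
  exact congrFun (congrFun (isGen_rot' (n := n) i j).skew l) k

omit [CompactSpace M] [T2Space M] in
/-- `[V_A, V_B] = V_{AB - BA}` for all rotation generators. -/
theorem brk_ver_ver (hf : SmF f) (q r : Fin n × Fin n) (p : Fr g) :
    dZ (verZ g (Brk.rot q.1 q.2)) (dZ (verZ g (Brk.rot r.1 r.2)) f) p -
      dZ (verZ g (Brk.rot r.1 r.2)) (dZ (verZ g (Brk.rot q.1 q.2)) f) p =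
      ∑ s : Fin n × Fin n, (1 / 2 * (Brk.rot (ι := Fin n) q.1 q.2 * Brk.rot r.1 r.2 -
        Brk.rot r.1 r.2 * Brk.rot q.1 q.2) s.1 s.2) * dZ (verZ g (Brk.rot s.1 s.2)) f p := by
  have ha : p.pt ∈ (chartAt (EV n) p.pt).source := mem_chart_source _ _
  rw [(isFlow_ver (isGen_rot' q.1 q.2)).bracket (isFlow_ver (isGen_rot' r.1 r.2)) hf ha]
  change fderiv ℝ (rd f p.pt) (chF p.pt p.1)
    (lieBracket ℝ (Brk.ver (Brk.rot q.1 q.2)) (Brk.ver (Brk.rot r.1 r.2)) (chF p.pt p.1)) = _
  rw [Brk.lieBracket_ver_ver, fderiv_ver_skew hf (fun i j => ?_) ha]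
  simp only [Matrix.sub_apply, Matrix.mul_apply]
  rw [← Finset.sum_sub_distrib, ← Finset.sum_sub_distrib, ← Finset.sum_neg_distrib]
  refine Finset.sum_congr rfl fun k _ => ?_
  rw [rot_skew q.1 q.2 i k, rot_skew r.1 r.2 k j, rot_skew r.1 r.2 i k, rot_skew q.1 q.2 k j]
  ring

end Brackets

variable (g) in
omit [CompactSpace M] [T2Space M] in
/-- the curvature components as smooth functions. -/
def RfS (i j k l : Fin n) : SmFr g :=
  ⟨⟨fun f => Rf g f i j k l, (H743.smF_Rf i j k l).continuous⟩, H743.smF_Rf i j k l⟩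

variable (g) in
/-- the structure functions. -/
def strN : Ix n → Ix n → Ix n → SmFr g
  | .inl i, .inl j, .inr q => algebraMap ℝ _ (1 / 2) * RfS g i j q.1 q.2
  | .inl _, .inl _, .inl _ => 0
  | .inr q, .inl k, .inl d => algebraMap ℝ _ (Brk.rot (ι := Fin n) q.1 q.2 d k)
  | .inr _, .inl _, .inr _ => 0
  | .inl k, .inr q, .inl d => algebraMap ℝ _ (-Brk.rot (ι := Fin n) q.1 q.2 d k)
  | .inl _, .inr _, .inr _ => 0
  | .inr q, .inr r, .inr s => algebraMap ℝ _ (1 / 2 * (Brk.rot (ι := Fin n) q.1 q.2 *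
      Brk.rot r.1 r.2 - Brk.rot r.1 r.2 * Brk.rot q.1 q.2) s.1 s.2)
  | .inr _, .inr _, .inl _ => 0

/-- the brackets of the derivations. -/
theorem brkN (H : HorFlows g) (a b : Ix n) (f : SmFr g) :
    derN (isFlow_flowN H a) (derN (isFlow_flowN H b) f) -
      derN (isFlow_flowN H b) (derN (isFlow_flowN H a) f) =
      ∑ k, strN g a b k * derN (isFlow_flowN H k) f := by
  apply Subtype.ext
  ext p
  have hsum : ((∑ k, strN g a b k * derN (isFlow_flowN H k) f : SmFr g) : C(Fr g, ℝ)) p =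
      (∑ i : Fin n, (strN g a b (.inl i) : C(Fr g, ℝ)) p *
        dZ (horZ g (Pi.single i 1)) (fun p => (f : C(Fr g, ℝ)) p) p) +
      ∑ q : Fin n × Fin n, (strN g a b (.inr q) : C(Fr g, ℝ)) p *
        dZ (verZ g (Brk.rot q.1 q.2)) (fun p => (f : C(Fr g, ℝ)) p) p := by
    rw [Fintype.sum_sum_type]
    simp only [AddMemClass.coe_add, AddSubmonoidClass.coe_finsetSum, ContinuousMap.add_apply,
      ContinuousMap.coe_sum, Finset.sum_apply]
    rfl
  rw [hsum]
  change dZ (fieldN g a) (dZ (fieldN g b) (fun p => (f : C(Fr g, ℝ)) p)) p -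
    dZ (fieldN g b) (dZ (fieldN g a) (fun p => (f : C(Fr g, ℝ)) p)) p = _
  rcases a with i | q <;> rcases b with j | r
  · rw [show (∑ i' : Fin n, (strN g (.inl i) (.inl j) (.inl i') : C(Fr g, ℝ)) p *
        dZ (horZ g (Pi.single i' 1)) (fun p => (f : C(Fr g, ℝ)) p) p) = 0 from
      Finset.sum_eq_zero fun _ _ => zero_mul _, zero_add]
    exact brk_hor_hor H f.2 i j p
  · rw [show (∑ q : Fin n × Fin n, (strN g (.inl i) (.inr r) (.inr q) : C(Fr g, ℝ)) p *
        dZ (verZ g (Brk.rot q.1 q.2)) (fun p => (f : C(Fr g, ℝ)) p) p) = 0 from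
      Finset.sum_eq_zero fun _ _ => zero_mul _, add_zero]
    have h1 := bracket_ver_hor (isGen_rot' r.1 r.2) H.hor (f := fun p => (f : C(Fr g, ℝ)) p)
      f.2 i p
    have h2 := congrArg Neg.neg h1
    rw [neg_sub, ← Finset.sum_neg_distrib] at h2
    refine h2.trans (Finset.sum_congr rfl fun d _ => ?_)
    rw [smul_eq_mul, ← neg_mul]
    rfl
  · rw [show (∑ r : Fin n × Fin n, (strN g (.inr q) (.inl j) (.inr r) : C(Fr g, ℝ)) p *
        dZ (verZ g (Brk.rot r.1 r.2)) (fun p => (f : C(Fr g, ℝ)) p) p) = 0 from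
      Finset.sum_eq_zero fun _ _ => zero_mul _, add_zero]
    have h1 := bracket_ver_hor (isGen_rot' q.1 q.2) H.hor (f := fun p => (f : C(Fr g, ℝ)) p)
      f.2 j p
    exact h1
  · rw [show (∑ i' : Fin n, (strN g (.inr q) (.inr r) (.inl i') : C(Fr g, ℝ)) p *
        dZ (horZ g (Pi.single i' 1)) (fun p => (f : C(Fr g, ℝ)) p) p) = 0 from
      Finset.sum_eq_zero fun _ _ => zero_mul _, zero_add]
    exact brk_ver_ver f.2 q r p

/-! ### the system -/

section Sys

variable [Nonempty (Fr g)] {m : Measure (UT g)} {mP : Measure (Fr g)} {φ : ℝ → UT g → UT g}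

theorem jsm_flowN (H : HorFlows g) (a : Ix n) : JSm (flowN H a) := by
  cases a with
  | inl i => exact (H.hor i).jsm
  | inr q => exact jsm_ver (isGen_rot' q.1 q.2)

/-- **the frame bundle as a system of flows.** -/
def frN (H : HorFlows g) (hP : IsMP m mP) (hφ : IsGeoFlow g φ)
    (hmp : ∀ t, MeasurePreserving (φ t) m m) : H395.NSys (Ix n) (Fr g) mP where
  Φ := flowN H
  cont := continuous_flowN H
  zero a p := (isFlow_flowN H a).zero p
  add a s t p := by
    cases a with
    | inl i => exact (H.hor i).add s t p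
    | inr q => exact verFlow_add (isGen_rot' q.1 q.2) s t p
  mp a t := by
    cases a with
    | inl i => exact H.mp hP hφ hmp i t
    | inr q => exact hP.rot _
  A := SmFr g
  dense := H665.dense_of_smF (SmFr g) fun _ hf => hf
  comp a t f hf := by
    have h1 : SmF (fun p => f (flowN H a t p)) := SmF.comp_JSm hf (jsm_flowN H a) t
    exact ⟨⟨_, h1.continuous⟩, h1, fun _ => rfl⟩
  X a := derN (isFlow_flowN H a)
  der a f p := hasDerivAt_dZ (isFlow_flowN H a) f.2 p
  joint a b f := by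
    have h1 := continuous_dZ_comp (f := fun p => (f : C(Fr g, ℝ)) p) f.2 (jsm_flowN H b)
      (jsm_flowN H a) (isFlow_flowN H a)
    refine h1.congr fun q => ?_
    have h2 := hasDerivAt_dZ (isFlow_flowN H a)
      (SmF.comp_JSm (f := fun p => (f : C(Fr g, ℝ)) p) f.2 (jsm_flowN H b) q.1) q.2
    exact h2.deriv.symm
  c := strN g
  brk := brkN H

end Sys

end Vale.Agent.P207.H955
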